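import Vale.Agent.P114.H408.Sets

/-!
The entropy dimension of a system equals the value of the dimension formula.
-/

open scoped Classical

noncomputable section

namespace Vale.Agent.N114

open Vale.Agent.P114

variable {Λ : Type} [Fintype Λ]

/-- Rational quotients of logarithms give a common base. -/
lemma exists_base [Nonempty Λ] (r : Λ → ℝ) (h0 : ∀ i, r i ≠ 0) (h1 : ∀ i, |r i| < 1)
    (hq : ∀ i j, ¬ Irrational (Real.log |r i| / Real.log |r j|)) :
    ∃ (lam : ℝ) (a : Λ → ℕ), 0 < lam ∧ lam < 1 ∧ (∀ i, 1 ≤ a i) ∧ ∀ i, |r i| = lam ^ a i := by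
  obtain ⟨i0⟩ := ‹Nonempty Λ›
  have hl0 : Real.log |r i0| < 0 := Real.log_neg (abs_pos.2 (h0 i0)) (h1 i0)
  have hrat : ∀ i, ∃ q : ℚ, (q : ℝ) = Real.log |r i| / Real.log |r i0| := by
    intro i
    have := hq i i0
    rw [Irrational, not_not] at this
    exact this
  choose q hq' using hrat
  set d : ℕ := ∏ i, (q i).den with hd
  have hd0 : 0 < d := Finset.prod_pos fun i _ => (q i).den_pos
  have hqpos : ∀ i, 0 < q i := by
    intro i
    have h2 : (0 : ℝ) < (q i : ℝ) := by
      rw [hq' i]
      exact div_pos_of_neg_of_neg (Real.log_neg (abs_pos.2 (h0 i)) (h1 i)) hl0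
    exact_mod_cast h2
  have hint : ∀ i, ∃ a : ℕ, 1 ≤ a ∧ (a : ℝ) = (q i : ℝ) * d := by
    intro i
    obtain ⟨e, he⟩ : (q i).den ∣ d := Finset.dvd_prod_of_mem _ (Finset.mem_univ i)
    have hnum : 0 < (q i).num := Rat.num_pos.2 (hqpos i)
    have he0 : 0 < e := by
      rcases Nat.eq_zero_or_pos e with h | h
      · rw [h, mul_zero] at he; omega
      · exact h
    refine ⟨(q i).num.toNat * e, ?_, ?_⟩
    · have : 0 < (q i).num.toNat := by omega
      exact Nat.mul_pos this he0
    · have e1 : ((q i).num.toNat : ℝ) = ((q i).num : ℝ) := by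
        have : (((q i).num.toNat : ℤ) : ℝ) = ((q i).num : ℝ) := by
          rw [Int.toNat_of_nonneg hnum.le]
        exact_mod_cast this
      have e2 : (q i : ℝ) * (q i).den = (q i).num := by
        exact_mod_cast Rat.mul_den_eq_num (q i)
      rw [he]
      push_cast
      rw [e1, ← e2]
      ring
  choose a ha1 ha using hint
  have hdR : (0 : ℝ) < d := by exact_mod_cast hd0
  refine ⟨Real.exp (Real.log |r i0| / d), a, Real.exp_pos _, ?_, ha1, fun i => ?_⟩
  · rw [Real.exp_lt_one_iff]
    exact div_neg_of_neg_of_pos hl0 hdR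
  · rw [← Real.exp_nat_mul, ha i, hq' i]
    have e3 : Real.log |r i| / Real.log |r i0| * d * (Real.log |r i0| / d) = Real.log |r i| := by
      have h5 : Real.log |r i0| ≠ 0 := hl0.ne
      field_simp
    rw [e3, Real.exp_log (abs_pos.2 (h0 i))]

/-- The step estimate for all systems. -/
lemma step_all (S : Sys Λ) (hp : ∀ i, 0 < S.P.w i) (t : Λ → ℝ) (hα : S.alpha t < 1) (ε : ℝ)
    (hε : 0 < ε) : ∃ n > 0, S.HG t n ≤ (S.alpha t * S.χ + ε) * n := by
  have : Nonempty Λ := S.nonempty
  have h0 : ∀ i, S.r i ≠ 0 := fun i => abs_pos.1 (S.r_abs_pos i)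
  have h1 : ∀ i, |S.r i| < 1 := fun i => (S.le_ρ i).trans_lt S.ρ_lt
  by_cases h : ∃ i j, Irrational (Real.log |S.r i| / Real.log |S.r j|)
  · obtain ⟨i, j, h⟩ := h
    exact S.irr_step t hα i j (hp i) (hp j) h ε hε
  · push Not at h
    obtain ⟨lam, a, hl0, hl1, ha, hr⟩ := exists_base S.r h0 h1 h
    by_cases halg : IsAlgebraic ℚ lam
    · have hralg : ∀ i, IsAlgebraic ℚ (S.r i) := by
        intro i
        have h2 : IsAlgebraic ℚ (lam ^ a i) := halg.pow _
        rcases abs_choice (S.r i) with h | h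
        · rw [hr i] at h; rw [← h]; exact h2
        · rw [hr i] at h
          have : S.r i = -(lam ^ a i) := by rw [h]; ring
          rw [this]; exact h2.neg
      obtain ⟨n0, hn0⟩ := S.algebraic_step (fun k => det_lower_bound S.r hralg k) t hα ε hε
      exact ⟨n0 + 1, by omega, hn0 (n0 + 1) (by omega)⟩
    · have htr : Transcendental ℤ lam := by
        intro h
        exact halg ((IsFractionRing.isAlgebraic_iff ℤ ℚ ℝ).1 h)
      let _ : Com.Wts Λ :=
        { wt := a
          sg := fun i => if 0 ≤ S.r i then 1 else -1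
          A := ∑ i, a i
          wt_pos := ha
          wt_le := fun i => Finset.single_le_sum (fun _ _ => Nat.zero_le _) (Finset.mem_univ i)
          sg_sq := fun i => by split_ifs <;> norm_num }
      have hcom : Com.IsCom S lam := by
        refine ⟨hl0, hl1, fun i => ?_⟩
        change S.r i = (((if 0 ≤ S.r i then 1 else -1 : ℤ)) : ℝ) * lam ^ a i
        split_ifs with h
        · rw [← hr i, abs_of_nonneg h]; simp
        · rw [← hr i, abs_of_neg (not_le.1 h)]; push_cast; ring
      exact Com.com_step S lam hcom htr t hα ε hε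

/-- The entropy dimension is the value of the dimension formula. -/
theorem alpha_eq (S : Sys Λ) (hp : ∀ i, 0 < S.P.w i) (t : Λ → ℝ) :
    S.alpha t = min 1 (hRW S.r t S.P.w / lyap S.r S.P.w) := by
  have hlog : 0 < Real.log 2 := Real.log_pos (by norm_num)
  have hχ := S.χ_pos
  have hly : lyap S.r S.P.w = S.χ / Real.log 2 := lyap_eq S.r S.P.w
  have hst : ∀ n, stepEntropy S.r t S.P.w n = S.HG t n / Real.log 2 := fun n =>
    stepEntropy_eq S.r t S.P.w S.P (fun _ => rfl) n
  refine le_antisymm (le_min (S.alpha_le_one t) ?_) ?_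
  · rw [hly, le_div_iff₀ (by positivity)]
    refine le_hRW _ _ _ _ fun n hn => ?_
    have hn' : (0 : ℝ) < (n : ℝ) := by exact_mod_cast Nat.pos_of_ne_zero hn
    have h1 := S.alpha_mul_χ_le t n
    rw [hst, div_div, le_div_iff₀ (by positivity)]
    refine le_trans (le_of_eq ?_) h1
    field_simp
  · rcases lt_or_ge (S.alpha t) 1 with hα | hα
    · refine (min_le_right _ _).trans ?_
      rw [hly, div_le_iff₀ (by positivity)]
      refine le_of_forall_pos_le_add fun ε hε => ?_
      obtain ⟨n, hn, h1⟩ := step_all S hp t hα (ε * Real.log 2) (by positivity)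
      have h2 := hRW_le S.r t S.P.w S.P.nonneg S.P.sum_one n hn.ne'
      rw [hst] at h2
      refine h2.trans ?_
      have hn' : (0 : ℝ) < (n : ℝ) := by exact_mod_cast hn
      rw [div_div, div_le_iff₀ (by positivity)]
      refine h1.trans (le_of_eq ?_)
      field_simp
    · exact (min_le_left _ _).trans hα

end Vale.Agent.N114
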