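import Vale.Agent.N114.FreeSets

/-!
Comparison of systems: the dimensions depend only on the moduli of the ratios and on the exact
overlaps.
-/

open scoped Classical Topology ENNReal

open Filter MeasureTheory

noncomputable section

namespace Vale.Agent.N114

open Vale.Agent.P114

lemma wordMap_sub {Λ : Type} (r t : Λ → ℝ) {n : ℕ} (S : Finset (Fin n → Λ)) (L : List S) :
    wordMap (fun w : S => sl r w.1) (fun w : S => tr r t w.1) L
      = wordMap r t (L.flatMap fun w => List.ofFn w.1) := by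
  induction L with
  | nil => rfl
  | cons a L ih =>
    funext x
    rw [List.flatMap_cons, wordMap_eq r t, slL_append, trL_append]
    show sl r a.1 * wordMap (fun w : S => sl r w.1) (fun w : S => tr r t w.1) L x + tr r t a.1 = _
    rw [ih, wordMap_eq r t]
    unfold sl tr
    ring

lemma length_sub {Λ : Type} {n : ℕ} (S : Finset (Fin n → Λ)) (L : List S) :
    (L.flatMap fun w => List.ofFn w.1).length = L.length * n := by
  induction L with
  | nil => simp
  | cons a L ih =>
    rw [List.flatMap_cons, List.length_append, ih, List.length_ofFn, List.length_cons]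
    ring

variable {Λ : Type} [Fintype Λ] [Nonempty Λ]

lemma freeDim_mono (r t r' t' : Λ → ℝ) (hr0 : ∀ i, r i ≠ 0) (hr1' : ∀ i, |r' i| < 1)
    (hle : ∀ i, |r i| ≤ |r' i|)
    (hov : ∀ u v : List Λ, u.length = v.length → wordMap r' t' u = wordMap r' t' v →
      wordMap r t u = wordMap r t v) : freeDim r t ≤ freeDim r' t' := by
  have hr0' : ∀ i, r' i ≠ 0 := fun i => abs_pos.1 ((abs_pos.2 (hr0 i)).trans_le (hle i))
  unfold freeDim
  refine iSup_le fun n => iSup_le fun S => iSup_le fun s => iSup_le fun hS => iSup_le fun hs => ?_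
  rcases le_or_gt s 0 with hs0 | hs0
  · rw [ENNReal.ofReal_of_nonpos hs0]
    exact zero_le
  have hS' : FreeWords r' t' S := by
    rw [freeWords_iff] at hS ⊢
    intro m u v h
    refine hS m u v ?_
    rw [wordMap_sub, wordMap_sub] at h ⊢
    refine hov _ _ ?_ h
    rw [length_sub, length_sub, List.length_ofFn, List.length_ofFn]
  have hsl : ∀ w : Fin (n + 1) → Λ, |sl r w| ≤ |sl r' w| := by
    intro w
    rw [sl_eq_prod, sl_eq_prod, Finset.abs_prod, Finset.abs_prod]
    exact Finset.prod_le_prod (fun _ _ => abs_nonneg _) fun k _ => hle _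
  obtain ⟨s', h1, h2⟩ := exists_simdim S (fun w => |sl r' w|)
    (fun w _ => abs_sl_pos r' hr0' w) (fun w _ => abs_sl_lt r' hr1' w) s (by
      rw [← hs]
      refine Finset.sum_le_sum fun w _ => ?_
      rw [← sl_eq_prod]
      exact Real.rpow_le_rpow (abs_nonneg _) (hsl w) hs0.le)
  refine le_iSup_of_le n (le_iSup_of_le S (le_iSup_of_le s'
    (le_iSup_of_le hS' (le_iSup_of_le ?_ (ENNReal.ofReal_le_ofReal h1)))))
  simpa only [sl_eq_prod] using h2

omit [Nonempty Λ] in
lemma ratio_mono (r t r' t' p : Λ → ℝ) (hr0 : ∀ i, r i ≠ 0) (hr1' : ∀ i, |r' i| < 1)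
    (hle : ∀ i, |r i| ≤ |r' i|)
    (hov : ∀ u v : List Λ, u.length = v.length → wordMap r' t' u = wordMap r' t' v →
      wordMap r t u = wordMap r t v) (hp : ∀ i, 0 < p i) (hp1 : ∑ i, p i = 1) :
    hRW r t p / lyap r p ≤ hRW r' t' p / lyap r' p := by
  have hr0' : ∀ i, r' i ≠ 0 := fun i => abs_pos.1 ((abs_pos.2 (hr0 i)).trans_le (hle i))
  have hlog : 0 < Real.log 2 := Real.log_pos (by norm_num)
  have hL' := lyap_pos r' p hr0' hr1' (fun i => (hp i).le) hp1
  have h1 : lyap r' p ≤ lyap r p := by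
    rw [lyap_eq, lyap_eq]
    refine div_le_div_of_nonneg_right (neg_le_neg (Finset.sum_le_sum fun i _ => ?_)) hlog.le
    exact mul_le_mul_of_nonneg_left (Real.log_le_log (abs_pos.2 (hr0 i)) (hle i)) (hp i).le
  have h2 : hRW r t p ≤ hRW r' t' p := by
    refine le_hRW _ _ _ _ fun n hn => (hRW_le r t p (fun i => (hp i).le) hp1 n hn).trans ?_
    refine div_le_div_of_nonneg_right ?_ (Nat.cast_nonneg n)
    rw [stepEntropy_eq r t p ⟨p, fun i => (hp i).le, hp1⟩ (fun _ => rfl) n,
      stepEntropy_eq r' t' p ⟨p, fun i => (hp i).le, hp1⟩ (fun _ => rfl) n]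
    refine div_le_div_of_nonneg_right (FinProb.H_le_of_det _ fun u v h => ?_) hlog.le
    refine (wordMap_eq_iff r t u v).1 (hov _ _ ?_ ((wordMap_eq_iff r' t' u v).2 h))
    rw [List.length_ofFn, List.length_ofFn]
  have h3 : 0 ≤ hRW r' t' p := le_hRW _ _ _ _ fun n _ =>
    div_nonneg (stepEntropy_nonneg r' t' p (fun i => (hp i).le) hp1 n) (Nat.cast_nonneg n)
  exact div_le_div₀ h3 h2 hL' h1

omit [Nonempty Λ] in
lemma Dval_nonneg (x : (Λ → ℝ) × (Λ → ℝ) × (Λ → ℝ)) (hx : x ∈ Params Λ) : 0 ≤ Dval x := by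
  have hL := lyap_pos x.1 x.2.2 hx.1 hx.2.1 (fun i => (hx.2.2.1 i).le) hx.2.2.2
  refine le_min zero_le_one (div_nonneg ?_ hL.le)
  exact le_hRW _ _ _ _ fun n _ => div_nonneg
    (stepEntropy_nonneg _ _ _ (fun i => (hx.2.2.1 i).le) hx.2.2.2 n) (Nat.cast_nonneg n)

/-- Dependence of the dimension on the parameters. -/
theorem param_dependence (μ : (Λ → ℝ) × (Λ → ℝ) × (Λ → ℝ) → Measure ℝ)
    (hμ : ∀ x ∈ Params Λ, IsSelfSimilar x.1 x.2.1 x.2.2 (μ x)) :
    LowerSemicontinuousOn (fun x => lowerDimH (μ x)) (Params Λ) ∧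
    (∀ x ∈ Params Λ, ContinuousWithinAt (fun x => lowerDimH (μ x)) (Params Λ) x ↔
      NoExactOverlaps x.1 x.2.1 ∨ lowerDimH (μ x) = 1) ∧
    ∀ r t : Λ → ℝ, ContinuousOn (fun p => lowerDimH (μ (r, t, p)))
      {p | (r, t, p) ∈ Params Λ} := by
  have hf : ∀ x ∈ Params Λ, lowerDimH (μ x) = ENNReal.ofReal (Dval x) := fun x hx =>
    LD.formula x.1 x.2.1 x.2.2 hx.1 hx.2.1 hx.2.2.1 hx.2.2.2 (μ x) (hμ x hx)
  refine ⟨fun x hx a ha => ?_, fun x hx => ?_, fun r t => ?_⟩
  · simp only [hf x hx] at ha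
    have ha' : a ≠ ∞ := ne_top_of_lt ha
    have h1 : a.toReal < Dval x := (ENNReal.lt_ofReal_iff_toReal_lt ha').1 ha
    filter_upwards [lsc_Dval x hx _ h1, self_mem_nhdsWithin] with y h2 hy
    rw [hf y hy]
    exact (ENNReal.lt_ofReal_iff_toReal_lt ha').2 h2
  · have h1 : lowerDimH (μ x) = 1 ↔ Dval x = 1 := by
      rw [hf x hx, ENNReal.ofReal_eq_one]
    rw [h1, ← continuousWithinAt_iff x hx]
    constructor
    · intro h
      have h2 : ContinuousWithinAt (fun y => (lowerDimH (μ y)).toReal) (Params Λ) x :=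
        ContinuousAt.comp_continuousWithinAt (g := ENNReal.toReal) (ENNReal.continuousAt_toReal
          (by rw [hf x hx]; exact ENNReal.ofReal_ne_top)) h
      refine h2.congr (fun y hy => ?_) ?_
      · rw [hf y hy, ENNReal.toReal_ofReal (Dval_nonneg y hy)]
      · rw [hf x hx, ENNReal.toReal_ofReal (Dval_nonneg x hx)]
    · intro h
      exact (ENNReal.continuous_ofReal.continuousAt.comp_continuousWithinAt h).congr
        (fun y hy => hf y hy) (hf x hx)
  · exact (ENNReal.continuous_ofReal.comp_continuousOn (continuousOn_weights r t)).congr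
      fun p hp => hf _ hp

end Vale.Agent.N114
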