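import Vale.Agent.P114.H408.Defs

open scoped ENNReal

noncomputable section

namespace Vale.Agent.N114

open Vale.Agent.P114

/-- The admissible parameters `(r, t, p)`: `0 < |rᵢ| < 1`, `tᵢ` real, `pᵢ > 0`, `∑ pᵢ = 1`. -/
def Params (Λ : Type) [Fintype Λ] : Set ((Λ → ℝ) × (Λ → ℝ) × (Λ → ℝ)) :=
  {x | (∀ i, x.1 i ≠ 0) ∧ (∀ i, |x.1 i| < 1) ∧ (∀ i, 0 < x.2.2 i) ∧ ∑ i, x.2.2 i = 1}

/-- The system of the maps `φ_w`, `w ∈ S` (slope `r_w`, translation `φ_w(0)`), for a set `S` of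
words of one length, has no exact overlaps. -/
def FreeWords {Λ : Type} (r t : Λ → ℝ) {n : ℕ} (S : Finset (Fin n → Λ)) : Prop :=
  NoExactOverlaps (fun w : S => ∏ k, r (w.1 k)) (fun w : S => wordMap r t (List.ofFn w.1) 0)

/-- The supremum of the similarity dimensions `s` (`∑_{w ∈ S} |r_w|^s = 1`) of the subsystems
`(φ_w)_{w ∈ S}`, `S ⊆ Λⁿ`, `n ≥ 1`, that have no exact overlaps. -/
def freeDim {Λ : Type} (r t : Λ → ℝ) : ℝ≥0∞ :=
  ⨆ (n : ℕ) (S : Finset (Fin (n + 1) → Λ)) (s : ℝ) (_ : FreeWords r t S)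
    (_ : ∑ w ∈ S, |∏ k, r (w k)| ^ s = 1), ENNReal.ofReal s

end Vale.Agent.N114
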