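import Vale.Agent.N114.Generic
import Mathlib.MeasureTheory.Covering.Vitali

/-!
The dimension of a self-similar set with exact overlaps.
-/

open scoped Classical Topology ENNReal

open Filter MeasureTheory

noncomputable section

namespace Vale.Agent.N114

open Vale.Agent.P114

lemma freeWords_iff {Λ : Type} (r t : Λ → ℝ) {n : ℕ} (S : Finset (Fin n → Λ)) :
    FreeWords r t S ↔ NoExactOverlaps (fun w : S => sl r w.1) (fun w : S => tr r t w.1) := by
  unfold FreeWords
  have h1 : (fun w : S => ∏ k, r (w.1 k)) = fun w : S => sl r w.1 :=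
    funext fun w => (sl_eq_prod r w.1).symm
  have h2 : (fun w : S => wordMap r t (List.ofFn w.1) 0) = fun w : S => tr r t w.1 := by
    funext w
    rw [wordMap_eq, mul_zero, zero_add]
    rfl
  rw [h1, h2]

/-- The coding map takes its values in every closed invariant set. -/
lemma code_mem_of_inv {A : Type} [Fintype A] [Nonempty A] (r t : A → ℝ) (hr1 : ∀ i, |r i| < 1)
    (K : Set ℝ) (hne : K.Nonempty) (hcl : IsClosed K) (hin : ∀ i, ∀ x ∈ K, r i * x + t i ∈ K)
    (ω : ℕ → A) : LD.code r t ω ∈ K := by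
  obtain ⟨x, hx⟩ := hne
  obtain ⟨ρ, T, h0, h1, hT, hr, ht⟩ := LD.exists_bounds r t hr1
  have hpart : ∀ n : ℕ, ∀ x ∈ K,
      ∑ k ∈ Finset.range n, (∏ j ∈ Finset.range k, r (ω j)) * t (ω k)
        + (∏ j ∈ Finset.range n, r (ω j)) * x ∈ K := by
    intro n
    induction n with
    | zero => intro x hx; simpa using hx
    | succ n ih =>
      intro x hx
      have h2 := ih _ (hin (ω n) x hx)
      rw [Finset.sum_range_succ, Finset.prod_range_succ]
      have e : ∑ k ∈ Finset.range n, (∏ j ∈ Finset.range k, r (ω j)) * t (ω k)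
          + (∏ j ∈ Finset.range n, r (ω j)) * t (ω n)
          + (∏ j ∈ Finset.range n, r (ω j)) * r (ω n) * x
          = ∑ k ∈ Finset.range n, (∏ j ∈ Finset.range k, r (ω j)) * t (ω k)
          + (∏ j ∈ Finset.range n, r (ω j)) * (r (ω n) * x + t (ω n)) := by ring
      rw [e]
      exact h2
  have hlim : Tendsto (fun n => ∑ k ∈ Finset.range n, (∏ j ∈ Finset.range k, r (ω j)) * t (ω k)
      + (∏ j ∈ Finset.range n, r (ω j)) * x) atTop (𝓝 (LD.code r t ω + 0)) := by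
    refine ((LD.code_summable r t hr1 ω).hasSum.tendsto_sum_nat).add ?_
    rw [tendsto_zero_iff_abs_tendsto_zero]
    refine squeeze_zero (fun _ => abs_nonneg _) (g := fun n => ρ ^ n * |x|) (fun n => ?_) ?_
    · simp only [Function.comp, abs_mul]
      exact mul_le_mul_of_nonneg_right (LD.abs_prod_le r ρ hr ω n) (abs_nonneg _)
    · simpa using (tendsto_pow_atTop_nhds_zero_of_lt_one h0 h1).mul_const |x|
  rw [add_zero] at hlim
  exact hcl.mem_of_tendsto hlim (Eventually.of_forall fun n => hpart n x hx)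

/-- A closed set invariant under a system without exact overlaps is large. -/
lemma le_dimH_of_inv {A : Type} [Fintype A] [Nonempty A] (r t : A → ℝ) (hr0 : ∀ i, r i ≠ 0)
    (hr1 : ∀ i, |r i| < 1) (hno : NoExactOverlaps r t) (K : Set ℝ) (hne : K.Nonempty)
    (hcl : IsClosed K) (hin : ∀ i, ∀ x ∈ K, r i * x + t i ∈ K) (s : ℝ)
    (hs1 : ∑ i, |r i| ^ s = 1) : ENNReal.ofReal (min 1 s) ≤ dimH K := by
  have hpos : ∀ i, 0 < |r i| := fun i => abs_pos.2 (hr0 i)
  set p : A → ℝ := fun i => |r i| ^ s with hp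
  have hp0 : ∀ i, 0 < p i := fun i => Real.rpow_pos_of_pos (hpos i) _
  obtain ⟨μ, hμ, hμK⟩ := LD.exists_selfSimilar r t p hr1 (fun i => (hp0 i).le) hs1
  have hKm : MeasurableSet K := hcl.measurableSet
  have h1 : μ K = 1 := hμK K hKm fun ω => code_mem_of_inv r t hr1 K hne hcl hin ω
  have h2 : lowerDimH μ ≤ dimH K :=
    (iInf₂_le K hKm).trans (iInf_le _ (by rw [h1]; exact one_pos))
  refine le_trans (le_of_eq ?_) h2
  rw [LD.formula r t p hr0 hr1 hp0 hs1 μ hμ, LD.hRW_eq r t p hp0 hs1 hno]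
  congr 2
  have hL := lyap_pos r p hr0 hr1 (fun i => (hp0 i).le) hs1
  rw [eq_div_iff hL.ne']
  unfold lyap
  rw [mul_neg, Finset.mul_sum]
  congr 1
  refine Finset.sum_congr rfl fun i _ => ?_
  simp only [hp, Real.logb, Real.log_rpow (hpos i)]
  ring

/-- Existence of the similarity dimension. -/
lemma exists_simdim {ι : Type} (S : Finset ι) (a : ι → ℝ)
    (h0 : ∀ i ∈ S, 0 < a i) (h1 : ∀ i ∈ S, a i < 1) (s0 : ℝ) (hs0 : 1 ≤ ∑ i ∈ S, a i ^ s0) :
    ∃ s, s0 ≤ s ∧ ∑ i ∈ S, a i ^ s = 1 := by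
  have hc : Continuous fun s : ℝ => ∑ i ∈ S, a i ^ s :=
    continuous_finsetSum _ fun i hi => Real.continuous_const_rpow (h0 i hi).ne'
  have hlim : Tendsto (fun s : ℝ => ∑ i ∈ S, a i ^ s) atTop (𝓝 (∑ i ∈ S, (0 : ℝ))) :=
    tendsto_finsetSum _ fun i hi =>
      tendsto_rpow_atTop_of_base_lt_one _ (by linarith [h0 i hi]) (h1 i hi)
  rw [Finset.sum_const_zero] at hlim
  obtain ⟨s1, h2, h3⟩ := ((hlim.eventually_lt_const one_pos).and (eventually_ge_atTop s0)).exists
  obtain ⟨s, hs, hs'⟩ := intermediate_value_Icc' h3 hc.continuousOn ⟨h2.le, hs0⟩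
  exact ⟨s, hs.1, hs'⟩

variable {Λ : Type} [Fintype Λ] [Nonempty Λ]

omit [Fintype Λ] [Nonempty Λ] in
lemma abs_sl_pos (r : Λ → ℝ) (hr0 : ∀ i, r i ≠ 0) {n : ℕ} (w : Fin n → Λ) : 0 < |sl r w| := by
  rw [sl_eq_prod, Finset.abs_prod]
  exact Finset.prod_pos fun i _ => abs_pos.2 (hr0 _)

omit [Fintype Λ] [Nonempty Λ] in
lemma abs_sl_le (r : Λ → ℝ) (ρ : ℝ) (hr : ∀ i, |r i| ≤ ρ) {n : ℕ} (w : Fin n → Λ) :
    |sl r w| ≤ ρ ^ n := by
  rw [sl_eq_prod, Finset.abs_prod]
  calc ∏ k, |r (w k)| ≤ ∏ _k : Fin n, ρ :=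
        Finset.prod_le_prod (fun _ _ => abs_nonneg _) fun k _ => hr _
    _ = ρ ^ n := by rw [Finset.prod_const, Finset.card_univ, Fintype.card_fin]

lemma abs_sl_lt (r : Λ → ℝ) (hr1 : ∀ i, |r i| < 1) {n : ℕ} (w : Fin (n + 1) → Λ) :
    |sl r w| < 1 := by
  obtain ⟨ρ, T, h0, h1, hT, hr, ht⟩ := LD.exists_bounds r r hr1
  exact (abs_sl_le r ρ hr w).trans_lt (pow_lt_one₀ h0 h1 (Nat.succ_ne_zero n))

/-- Lower bound by free subsystems. -/
lemma min_freeDim_le (r t : Λ → ℝ) (hr0 : ∀ i, r i ≠ 0) (hr1 : ∀ i, |r i| < 1) (K : Set ℝ)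
    (hK : IsAttractor r t K) : min 1 (freeDim r t) ≤ dimH K := by
  by_contra hcon
  push Not at hcon
  obtain ⟨h1, h2⟩ := lt_min_iff.1 hcon
  unfold freeDim at h2
  simp only [lt_iSup_iff] at h2
  obtain ⟨n, S, s, hS, hs, h3⟩ := h2
  rw [freeWords_iff] at hS
  have hne : S.Nonempty := by
    rw [Finset.nonempty_iff_ne_empty]
    rintro rfl
    simp at hs
  have : Nonempty S := hne.to_subtype
  have h4 := le_dimH_of_inv (fun w : S => sl r w.1) (fun w : S => tr r t w.1)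
    (fun w => abs_pos.1 (abs_sl_pos r hr0 w.1)) (fun w => abs_sl_lt r hr1 w.1) hS K hK.nonempty
    hK.compact.isClosed (fun w x hx => LD.attractor_iter_ge r t K hK _ w.1 ⟨x, hx, rfl⟩) s (by
      rw [← hs, ← Finset.sum_coe_sort S]
      simp only [sl_eq_prod])
  rw [ENNReal.ofReal_min, ENNReal.ofReal_one] at h4
  exact absurd (lt_min h1 h3) (not_lt.2 h4)

/-- Free subsystems whose enlarged intervals cover the self-similar set. -/
lemma exists_free_cover (r t : Λ → ℝ) (hr0 : ∀ i, r i ≠ 0) (hr1 : ∀ i, |r i| < 1) (K : Set ℝ)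
    (hK : IsAttractor r t K) : ∃ R : ℝ, 0 < R ∧ ∀ n : ℕ, ∃ S : Finset (Fin n → Λ),
      FreeWords r t S ∧ K ⊆ ⋃ w : S, Metric.closedBall (tr r t w.1) (4 * (|sl r w.1| * R)) := by
  obtain ⟨ρ, T, h0, h1, hT, hr, ht⟩ := LD.exists_bounds r t hr1
  obtain ⟨R1, hR1⟩ := hK.compact.isBounded.subset_closedBall 0
  obtain ⟨R, hR⟩ : ∃ R : ℝ, R = |R1| + T / (1 - ρ) + 1 := ⟨_, rfl⟩
  have hρ : 0 < 1 - ρ := by linarith
  have hTρ : 0 ≤ T / (1 - ρ) := by positivity
  have hR0 : 0 < R := by rw [hR]; positivity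
  have hKR : ∀ x ∈ K, |x| ≤ R := by
    intro x hx
    have := hR1 hx
    rw [Metric.mem_closedBall, Real.dist_eq, sub_zero] at this
    have h2 := le_abs_self R1
    rw [hR]
    linarith
  have hinv : ρ * R + T ≤ R := by
    have h2 : T / (1 - ρ) ≤ R := by rw [hR]; linarith [abs_nonneg R1]
    rw [div_le_iff₀ hρ] at h2
    linarith
  have hin : ∀ (n : ℕ) (w : Fin n → Λ) (x : ℝ), |x| ≤ R → |sl r w * x + tr r t w| ≤ R := by
    intro n
    induction n with
    | zero => intro w x hx; simpa using hx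
    | succ n ih =>
      intro w x hx
      have h2 : sl r w * x + tr r t w
          = r (w 0) * (sl r (Fin.tail w) * x + tr r t (Fin.tail w)) + t (w 0) := by
        conv_lhs => rw [← Fin.cons_self_tail w, sl_cons, tr_cons]
        ring
      rw [h2]
      refine (abs_add_le _ _).trans (le_trans (add_le_add ?_ (ht _)) hinv)
      rw [abs_mul]
      exact mul_le_mul (hr _) (ih _ x hx) (abs_nonneg _) h0
  have hball : ∀ (n : ℕ) (w : Fin n → Λ) (x : ℝ), |x| ≤ R →
      sl r w * x + tr r t w ∈ Metric.closedBall (tr r t w) (|sl r w| * R) := by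
    intro n w x hx
    rw [Metric.mem_closedBall, Real.dist_eq, add_sub_cancel_right, abs_mul]
    exact mul_le_mul_of_nonneg_left hx (abs_nonneg _)
  refine ⟨R, hR0, fun n => ?_⟩
  obtain ⟨u, -, hdis, hcov⟩ := Vitali.exists_disjoint_subfamily_covering_enlargement_closedBall
    (Set.univ : Set (Fin n → Λ)) (fun w => tr r t w) (fun w => |sl r w| * R) (ρ ^ n * R)
    (fun w _ => mul_le_mul_of_nonneg_right (abs_sl_le r ρ hr w) hR0.le) 4 (by norm_num)
  refine ⟨(Set.toFinite u).toFinset, ?_, fun x hx => ?_⟩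
  · rw [freeWords_iff]
    refine free_of_disjoint _ _ (fun w => abs_pos.1 (abs_sl_pos r hr0 w.1)) {x | |x| ≤ R}
      ⟨0, by simpa using hR0.le⟩ (fun w x hx => hin n w.1 x hx) fun v w x hx y hy h => ?_
    by_contra hne
    have h2 : v.1 ≠ w.1 := fun h' => hne (Subtype.ext h')
    have h3 := hdis ((Set.Finite.mem_toFinset _).1 v.2) ((Set.Finite.mem_toFinset _).1 w.2) h2
    exact Set.disjoint_left.1 h3 (hball n v.1 x hx) (h ▸ hball n w.1 y hy)
  · obtain ⟨w, y, hy, hyx⟩ := Set.mem_iUnion.1 (LD.attractor_iter r t K hK n hx)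
    obtain ⟨b, hb, hsub⟩ := hcov w (Set.mem_univ w)
    refine Set.mem_iUnion.2 ⟨⟨b, (Set.Finite.mem_toFinset _).2 hb⟩, hsub ?_⟩
    rw [← hyx]
    exact hball n w y (hKR y hy)

/-- Upper bound by free subsystems. -/
lemma dimH_le_freeDim (r t : Λ → ℝ) (hr0 : ∀ i, r i ≠ 0) (hr1 : ∀ i, |r i| < 1) (K : Set ℝ)
    (hK : IsAttractor r t K) : dimH K ≤ freeDim r t := by
  refine ENNReal.le_of_forall_nnreal_lt fun d hd => ?_
  by_contra hcon
  push Not at hcon
  obtain ⟨ρ, T, h0, h1, hT, hr, ht⟩ := LD.exists_bounds r t hr1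
  obtain ⟨R, hR0, hR⟩ := exists_free_cover r t hr0 hr1 K hK
  choose S hS hcov using hR
  have hs : (0 : ℝ) ≤ d := d.2
  have hsum : ∀ n : ℕ, ∑ w : S (n + 1), |sl r w.1| ^ (d : ℝ) ≤ 1 := by
    intro n
    by_contra h
    push Not at h
    rw [Finset.sum_coe_sort (S (n + 1)) (fun w => |sl r w| ^ (d : ℝ))] at h
    obtain ⟨s, h2, h3⟩ := exists_simdim (S (n + 1)) (fun w => |sl r w|)
      (fun w _ => abs_sl_pos r hr0 w) (fun w _ => abs_sl_lt r hr1 w) d h.le
    have h4 : ENNReal.ofReal s ≤ freeDim r t := by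
      unfold freeDim
      refine le_iSup_of_le n (le_iSup_of_le (S (n + 1)) (le_iSup_of_le s
        (le_iSup_of_le (hS (n + 1)) (le_iSup_of_le ?_ le_rfl))))
      simpa only [sl_eq_prod] using h3
    have h5 : (d : ℝ≥0∞) ≤ ENNReal.ofReal s := by
      rw [← ENNReal.ofReal_coe_nnreal]
      exact ENNReal.ofReal_le_ofReal h2
    exact absurd (h5.trans h4) (not_le.2 hcon)
  have hdiam : ∀ (n : ℕ) (w : Fin n → Λ),
      Metric.ediam (Metric.closedBall (tr r t w) (4 * (|sl r w| * R)))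
        ≤ ENNReal.ofReal (|sl r w| * (8 * R)) := by
    intro n w
    rw [Real.closedBall_eq_Icc, Real.ediam_Icc]
    exact ENNReal.ofReal_le_ofReal (le_of_eq (by ring))
  have hmain : (μH[d] : Measure ℝ) K ≤ liminf (fun n : ℕ => ∑ w : S (n + 1),
      Metric.ediam (Metric.closedBall (tr r t w.1) (4 * (|sl r w.1| * R))) ^ (d : ℝ)) atTop := by
    refine Measure.hausdorffMeasure_le_liminf_sum (d : ℝ) K
      (fun n : ℕ => ENNReal.ofReal (ρ ^ (n + 1) * (8 * R))) ?_
      (fun n (w : S (n + 1)) => Metric.closedBall (tr r t w.1) (4 * (|sl r w.1| * R))) ?_ ?_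
    · have h2 : Tendsto (fun n : ℕ => ρ ^ (n + 1) * (8 * R)) atTop (𝓝 0) := by
        have := ((tendsto_pow_atTop_nhds_zero_of_lt_one h0 h1).comp
          (tendsto_add_atTop_nat 1)).mul_const (8 * R)
        simpa using this
      have := ENNReal.tendsto_ofReal h2
      simpa only [ENNReal.ofReal_zero] using this
    · refine Eventually.of_forall fun n w => (hdiam _ w.1).trans ?_
      apply ENNReal.ofReal_le_ofReal
      exact mul_le_mul_of_nonneg_right (abs_sl_le r ρ hr w.1) (by positivity)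
    · exact Eventually.of_forall fun n => hcov (n + 1)
  have hbound : ∀ n : ℕ, ∑ w : S (n + 1),
      Metric.ediam (Metric.closedBall (tr r t w.1) (4 * (|sl r w.1| * R))) ^ (d : ℝ)
        ≤ ENNReal.ofReal ((8 * R) ^ (d : ℝ)) := by
    intro n
    have h8 : (0 : ℝ) ≤ 8 * R := by positivity
    calc _ ≤ ∑ w : S (n + 1), ENNReal.ofReal (|sl r w.1| ^ (d : ℝ) * (8 * R) ^ (d : ℝ)) := by
          refine Finset.sum_le_sum fun w _ => ?_
          refine (ENNReal.rpow_le_rpow (hdiam _ w.1) hs).trans (le_of_eq ?_)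
          rw [ENNReal.ofReal_rpow_of_nonneg (mul_nonneg (abs_nonneg _) h8) hs,
            Real.mul_rpow (abs_nonneg _) h8]
      _ = ENNReal.ofReal (∑ w : S (n + 1), |sl r w.1| ^ (d : ℝ) * (8 * R) ^ (d : ℝ)) := by
          rw [ENNReal.ofReal_sum_of_nonneg]
          intro w _
          exact mul_nonneg (Real.rpow_nonneg (abs_nonneg _) _) (Real.rpow_nonneg h8 _)
      _ ≤ ENNReal.ofReal ((8 * R) ^ (d : ℝ)) := by
          apply ENNReal.ofReal_le_ofReal
          rw [← Finset.sum_mul]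
          exact mul_le_of_le_one_left (Real.rpow_nonneg h8 _) (hsum n)
  have hfin : (μH[d] : Measure ℝ) K ≠ ∞ := by
    refine ne_top_of_le_ne_top ENNReal.ofReal_ne_top (b := ENNReal.ofReal ((8 * R) ^ (d : ℝ)))
      (hmain.trans ?_)
    refine (liminf_le_liminf (Eventually.of_forall hbound)).trans ?_
    simp only [liminf_const, Std.le_refl]
  exact absurd (dimH_le_of_hausdorffMeasure_ne_top hfin) (not_le.2 hd)

/-- The dimension of a self-similar set, exact overlaps allowed. -/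
theorem dimH_eq_freeDim (r t : Λ → ℝ) (hr0 : ∀ i, r i ≠ 0) (hr1 : ∀ i, |r i| < 1) (K : Set ℝ)
    (hK : IsAttractor r t K) : dimH K = min 1 (freeDim r t) := by
  refine le_antisymm (le_min ?_ (dimH_le_freeDim r t hr0 hr1 K hK))
    (min_freeDim_le r t hr0 hr1 K hK)
  rw [← Real.dimH_univ]
  exact dimH_mono (Set.subset_univ _)

end Vale.Agent.N114
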