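import Vale.Agent.N114.Lsc

/-!
Parameters without exact overlaps are dense; the points of continuity of the dimension.
-/

open scoped Classical Topology

open Filter Polynomial

noncomputable section

namespace Vale.Agent.N114

open Vale.Agent.P114

/-- Disjoint images of an invariant set exclude exact overlaps. -/
lemma free_of_disjoint {Λ : Type} (r t : Λ → ℝ) (hr0 : ∀ i, r i ≠ 0) (X : Set ℝ)
    (hX : X.Nonempty) (hin : ∀ i, ∀ x ∈ X, r i * x + t i ∈ X)
    (hdis : ∀ i j, ∀ x ∈ X, ∀ y ∈ X, r i * x + t i = r j * y + t j → i = j) :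
    NoExactOverlaps r t := by
  obtain ⟨x, hx⟩ := hX
  have hmem : ∀ (n : ℕ) (u : Fin n → Λ), sl r u * x + tr r t u ∈ X := by
    intro n
    induction n with
    | zero => intro u; simpa using hx
    | succ n ih =>
      intro u
      have h1 := hin (u 0) _ (ih (Fin.tail u))
      have h2 : sl r u * x + tr r t u
          = r (u 0) * (sl r (Fin.tail u) * x + tr r t (Fin.tail u)) + t (u 0) := by
        conv_lhs => rw [← Fin.cons_self_tail u, sl_cons, tr_cons]
        ring
      rw [h2]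
      exact h1
  have key : ∀ (n : ℕ) (u v : Fin n → Λ),
      sl r u * x + tr r t u = sl r v * x + tr r t v → u = v := by
    intro n
    induction n with
    | zero => intro u v _; exact Subsingleton.elim _ _
    | succ n ih =>
      intro u v h
      have h2 : ∀ w : Fin (n + 1) → Λ, sl r w * x + tr r t w
          = r (w 0) * (sl r (Fin.tail w) * x + tr r t (Fin.tail w)) + t (w 0) := by
        intro w
        conv_lhs => rw [← Fin.cons_self_tail w, sl_cons, tr_cons]
        ring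
      rw [h2 u, h2 v] at h
      have h3 : u 0 = v 0 := hdis _ _ _ (hmem n _) _ (hmem n _) h
      rw [h3] at h
      have h4 := mul_left_cancel₀ (hr0 (v 0)) (add_right_cancel h)
      rw [← Fin.cons_self_tail u, ← Fin.cons_self_tail v, h3, ih _ _ h4]
  intro n u v h
  have h1 := (wordMap_eq_iff r t u v).1 h
  refine key n u v ?_
  rw [(Prod.mk.inj h1).1, (Prod.mk.inj h1).2]

/-- A system without exact overlaps on any finite index set. -/
lemma exists_free (Λ : Type) [Fintype Λ] : ∃ r t : Λ → ℝ, NoExactOverlaps r t := by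
  obtain ⟨M, hM⟩ : ∃ M : ℝ, M = (Fintype.card Λ : ℝ) + 1 := ⟨_, rfl⟩
  have hM0 : 0 < M := by rw [hM]; positivity
  refine ⟨fun _ => 1 / M, fun i => ((Fintype.equivFin Λ i : ℕ) : ℝ),
    free_of_disjoint _ _ (fun _ => by positivity) (Set.Ico 0 M) ⟨0, le_rfl, hM0⟩ ?_ ?_⟩
  · intro i x hx
    have h1 : 0 ≤ 1 / M * x := mul_nonneg (by positivity) hx.1
    have h2 : 1 / M * x < 1 := by
      rw [one_div_mul_eq_div, div_lt_one hM0]
      exact hx.2
    have h3 : ((Fintype.equivFin Λ i : ℕ) : ℝ) ≤ Fintype.card Λ := by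
      exact_mod_cast (Fintype.equivFin Λ i).2.le
    have h4 : (0 : ℝ) ≤ ((Fintype.equivFin Λ i : ℕ) : ℝ) := Nat.cast_nonneg _
    exact ⟨by linarith, by rw [hM] at *; linarith⟩
  · intro i j x hx y hy h
    have h1 : ∀ z ∈ Set.Ico (0 : ℝ) M, 0 ≤ 1 / M * z ∧ 1 / M * z < 1 := by
      intro z hz
      refine ⟨mul_nonneg (by positivity) hz.1, ?_⟩
      rw [one_div_mul_eq_div, div_lt_one hM0]
      exact hz.2
    have h2 := h1 x hx
    have h3 := h1 y hy
    have h4 : ((Fintype.equivFin Λ i : ℕ) : ℝ) < ((Fintype.equivFin Λ j : ℕ) : ℝ) + 1 := by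
      linarith
    have h5 : ((Fintype.equivFin Λ j : ℕ) : ℝ) < ((Fintype.equivFin Λ i : ℕ) : ℝ) + 1 := by
      linarith
    have h6 : (Fintype.equivFin Λ i : ℕ) < (Fintype.equivFin Λ j : ℕ) + 1 := by exact_mod_cast h4
    have h7 : (Fintype.equivFin Λ j : ℕ) < (Fintype.equivFin Λ i : ℕ) + 1 := by exact_mod_cast h5
    exact (Fintype.equivFin Λ).injective (Fin.ext (by omega))

/-- The slope of a word along a segment of parameters is a polynomial. -/
lemma exists_poly {Λ : Type} (r t r' t' : Λ → ℝ) (u : List Λ) :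
    ∃ A B : ℝ[X], ∀ s : ℝ, A.eval s = slL (fun i => r i + s * (r' i - r i)) u ∧
      B.eval s = trL (fun i => r i + s * (r' i - r i)) (fun i => t i + s * (t' i - t i)) u := by
  induction u with
  | nil => exact ⟨1, 0, fun s => by simp [slL, trL]⟩
  | cons i u ih =>
    obtain ⟨A, B, h⟩ := ih
    refine ⟨(C (r i) + X * C (r' i - r i)) * A,
      (C (t i) + X * C (t' i - t i)) + (C (r i) + X * C (r' i - r i)) * B, fun s => ?_⟩
    simp only [eval_mul, eval_add, eval_C, eval_X, slL, trL, (h s).1, (h s).2, and_self]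

/-- Along a segment that ends at a free system, only countably many systems have overlaps. -/
lemma countable_bad {Λ : Type} [Fintype Λ] (r t r' t' : Λ → ℝ) (h : NoExactOverlaps r' t') :
    {s : ℝ | ¬ NoExactOverlaps (fun i => r i + s * (r' i - r i))
      (fun i => t i + s * (t' i - t i))}.Countable := by
  have key : ∀ (n : ℕ) (u v : Fin n → Λ), {s : ℝ | u ≠ v ∧
      wordMap (fun i => r i + s * (r' i - r i)) (fun i => t i + s * (t' i - t i)) (List.ofFn u)
      = wordMap (fun i => r i + s * (r' i - r i)) (fun i => t i + s * (t' i - t i))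
        (List.ofFn v)}.Finite := by
    intro n u v
    by_cases huv : u = v
    · refine Set.Finite.subset Set.finite_empty fun s hs => hs.1 huv
    obtain ⟨A, B, h1⟩ := exists_poly r t r' t' (List.ofFn u)
    obtain ⟨A', B', h2⟩ := exists_poly r t r' t' (List.ofFn v)
    have hne : (A - A') ^ 2 + (B - B') ^ 2 ≠ 0 := by
      intro h0
      have h3 := congrArg (eval 1) h0
      simp only [eval_add, eval_pow, eval_sub, eval_zero, (h1 1).1, (h1 1).2, (h2 1).1,
        (h2 1).2, one_mul, add_sub_cancel] at h3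
      apply huv
      refine h n u v ((wordMap_eq_iff r' t' u v).2 ?_)
      have h4 : slL r' (List.ofFn u) - slL r' (List.ofFn v) = 0 := by
        nlinarith [sq_nonneg (slL r' (List.ofFn u) - slL r' (List.ofFn v)),
          sq_nonneg (trL r' t' (List.ofFn u) - trL r' t' (List.ofFn v))]
      have h5 : trL r' t' (List.ofFn u) - trL r' t' (List.ofFn v) = 0 := by
        nlinarith [sq_nonneg (slL r' (List.ofFn u) - slL r' (List.ofFn v)),
          sq_nonneg (trL r' t' (List.ofFn u) - trL r' t' (List.ofFn v))]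
      exact Prod.ext (sub_eq_zero.1 h4) (sub_eq_zero.1 h5)
    refine (Polynomial.finite_setOfPred_isRoot hne).subset fun s hs => ?_
    have h3 := (wordMap_eq_iff _ _ u v).1 hs.2
    have h4 : A.eval s = A'.eval s := by rw [(h1 s).1, (h2 s).1]; exact (Prod.mk.inj h3).1
    have h5 : B.eval s = B'.eval s := by rw [(h1 s).2, (h2 s).2]; exact (Prod.mk.inj h3).2
    show IsRoot _ s
    simp only [IsRoot, eval_add, eval_pow, eval_sub, h4, h5, sub_self]
    norm_num
  refine (Set.countable_iUnion fun n : ℕ => Set.countable_iUnion fun u : Fin n → Λ =>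
    Set.countable_iUnion fun v : Fin n → Λ => (key n u v).countable).mono fun s hs => ?_
  have hs' : ¬ NoExactOverlaps _ _ := hs
  unfold NoExactOverlaps at hs'
  push Not at hs'
  obtain ⟨n, u, v, h1, h2⟩ := hs'
  exact Set.mem_iUnion.2 ⟨n, Set.mem_iUnion.2 ⟨u, Set.mem_iUnion.2 ⟨v, h2, h1⟩⟩⟩

variable {Λ : Type} [Fintype Λ]

/-- Parameters without exact overlaps are dense. -/
lemma frequently_free (x : (Λ → ℝ) × (Λ → ℝ) × (Λ → ℝ)) (hx : x ∈ Params Λ) :
    ∃ᶠ y in 𝓝[Params Λ] x, NoExactOverlaps y.1 y.2.1 := by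
  obtain ⟨r', t', h⟩ := exists_free Λ
  set γ : ℝ → (Λ → ℝ) × (Λ → ℝ) × (Λ → ℝ) := fun s =>
    (fun i => x.1 i + s * (r' i - x.1 i), fun i => x.2.1 i + s * (t' i - x.2.1 i), x.2.2) with hγ
  have hc : Continuous γ := by
    refine Continuous.prodMk (continuous_pi fun i => by fun_prop)
      (Continuous.prodMk (continuous_pi fun i => by fun_prop) continuous_const)
  have h0 : γ 0 = x := by simp [hγ]
  have h1 : Tendsto γ (𝓝 0) (𝓝[Params Λ] x) := by
    refine tendsto_nhdsWithin_iff.2 ⟨h0 ▸ hc.tendsto 0, ?_⟩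
    have e1 : ∀ᶠ s in 𝓝 (0 : ℝ), ∀ i, 0 < |(γ s).1 i| ∧ |(γ s).1 i| < 1 := by
      rw [eventually_all]
      intro i
      have hc' : ContinuousAt (fun s => |(γ s).1 i|) 0 :=
        (((continuous_apply i).comp (continuous_fst.comp hc)).abs).continuousAt
      refine (hc'.eventually_const_lt ?_).and (hc'.eventually_lt_const ?_)
      · show 0 < |(γ 0).1 i|
        rw [h0]; exact abs_pos.2 (hx.1 i)
      · show |(γ 0).1 i| < 1
        rw [h0]; exact hx.2.1 i
    filter_upwards [e1] with s hs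
    exact ⟨fun i => abs_pos.1 (hs i).1, fun i => (hs i).2, hx.2.2.1, hx.2.2.2⟩
  refine h1.frequently ?_
  have h2 := (countable_bad x.1 x.2.1 r' t' h).dense_compl ℝ
  have h3 := mem_closure_iff_frequently.1 (h2 0)
  exact h3.mono fun s hs => not_not.1 hs

/-- The similarity bound. -/
def Uval (x : (Λ → ℝ) × (Λ → ℝ) × (Λ → ℝ)) : ℝ :=
  min 1 ((-∑ i, x.2.2 i * Real.logb 2 (x.2.2 i)) / lyap x.1 x.2.2)

lemma continuousAt_Uval (x : (Λ → ℝ) × (Λ → ℝ) × (Λ → ℝ)) (hx : x ∈ Params Λ) :
    ContinuousAt Uval x := by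
  have hL := lyap_pos x.1 x.2.2 hx.1 hx.2.1 (fun i => (hx.2.2.1 i).le) hx.2.2.2
  refine Tendsto.min tendsto_const_nhds
    (ContinuousAt.div (ContinuousAt.neg ?_) (continuous_lyap x hx) hL.ne').tendsto
  refine tendsto_finsetSum _ fun i _ => ?_
  have h1 : ContinuousAt (fun y : (Λ → ℝ) × (Λ → ℝ) × (Λ → ℝ) => y.2.2 i) x :=
    ((continuous_apply i).comp (continuous_snd.comp continuous_snd)).continuousAt
  exact (h1.mul ((h1.log (hx.2.2.1 i).ne').div_const _)).tendsto

lemma Dval_eq_of_free (x : (Λ → ℝ) × (Λ → ℝ) × (Λ → ℝ)) (hx : x ∈ Params Λ)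
    (h : NoExactOverlaps x.1 x.2.1) : Dval x = Uval x := by
  unfold Dval Uval
  rw [LD.hRW_eq x.1 x.2.1 x.2.2 hx.2.2.1 hx.2.2.2 h]

lemma Dval_le (x : (Λ → ℝ) × (Λ → ℝ) × (Λ → ℝ)) (hx : x ∈ Params Λ) : Dval x ≤ Uval x := by
  by_cases h : NoExactOverlaps x.1 x.2.1
  · exact (Dval_eq_of_free x hx h).le
  · have hL := lyap_pos x.1 x.2.2 hx.1 hx.2.1 (fun i => (hx.2.2.1 i).le) hx.2.2.2
    refine min_le_min le_rfl (div_le_div_of_nonneg_right ?_ hL.le)
    exact (LD.hRW_lt x.1 x.2.1 x.2.2 hx.2.2.1 hx.2.2.2 h).le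

lemma Dval_eq_iff (x : (Λ → ℝ) × (Λ → ℝ) × (Λ → ℝ)) (hx : x ∈ Params Λ) :
    Dval x = Uval x ↔ NoExactOverlaps x.1 x.2.1 ∨ Dval x = 1 := by
  constructor
  · intro h
    by_contra hcon
    push Not at hcon
    have hL := lyap_pos x.1 x.2.2 hx.1 hx.2.1 (fun i => (hx.2.2.1 i).le) hx.2.2.2
    have h1 := div_lt_div_of_pos_right (LD.hRW_lt x.1 x.2.1 x.2.2 hx.2.2.1 hx.2.2.2 hcon.1) hL
    have h2 : Dval x < 1 := lt_of_le_of_ne (min_le_left _ _) hcon.2
    have h3 : Dval x ≤ hRW x.1 x.2.1 x.2.2 / lyap x.1 x.2.2 := min_le_right _ _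
    have h4 : Dval x < Uval x := lt_min h2 (h3.trans_lt h1)
    exact absurd h h4.ne
  · rintro (h | h)
    · exact Dval_eq_of_free x hx h
    · exact le_antisymm (Dval_le x hx) (h ▸ min_le_left _ _)

/-- The points of continuity. -/
theorem continuousWithinAt_iff [Nonempty Λ] (x : (Λ → ℝ) × (Λ → ℝ) × (Λ → ℝ))
    (hx : x ∈ Params Λ) :
    ContinuousWithinAt Dval (Params Λ) x ↔ NoExactOverlaps x.1 x.2.1 ∨ Dval x = 1 := by
  rw [← Dval_eq_iff x hx]
  have hU : Tendsto Uval (𝓝[Params Λ] x) (𝓝 (Uval x)) :=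
    (continuousAt_Uval x hx).tendsto.mono_left nhdsWithin_le_nhds
  constructor
  · intro h
    refine tendsto_nhds_unique_of_frequently_eq h hU ?_
    refine ((frequently_free x hx).and_eventually self_mem_nhdsWithin).mono fun y hy => ?_
    exact Dval_eq_of_free y hy.2 hy.1
  · intro h
    refine tendsto_order.2 ⟨fun a ha => lsc_Dval x hx a ha, fun a ha => ?_⟩
    rw [h] at ha
    filter_upwards [hU.eventually_lt_const ha, self_mem_nhdsWithin] with y h1 h2
    exact (Dval_le y h2).trans_lt h1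

end Vale.Agent.N114
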