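import Vale.Agent.N114.Alpha
import Vale.Agent.N114.Defs

/-!
Lower semicontinuity of the dimension in all parameters, continuity in the weights.
-/

open scoped Classical Topology

open Filter

noncomputable section

namespace Vale.Agent.N114

open Vale.Agent.P114

variable {Λ : Type} [Fintype Λ]

/-- The value of the dimension formula. -/
def Dval (x : (Λ → ℝ) × (Λ → ℝ) × (Λ → ℝ)) : ℝ :=
  min 1 (hRW x.1 x.2.1 x.2.2 / lyap x.1 x.2.2)

/-- Entropy of a function of a random word, as a function of the weights. -/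
def Hp {β : Type} (N : ℕ) (f : (Fin N → Λ) → β) (p : Λ → ℝ) : ℝ :=
  ∑ w : Fin N → Λ, (∏ k, p (w k)) *
    (-Real.log (∑ w' : Fin N → Λ, if f w' = f w then ∏ k, p (w' k) else 0))

lemma Hp_eq {β : Type} (N : ℕ) (f : (Fin N → Λ) → β) (P : FinProb Λ) :
    (P.pi N).H f = Hp N f P.w := rfl

lemma continuousAt_Hp {β : Type} (N : ℕ) (f : (Fin N → Λ) → β) (p : Λ → ℝ)
    (hp : ∀ i, 0 < p i) : ContinuousAt (Hp N f) p := by
  have h1 : ∀ w : Fin N → Λ, Continuous fun q : Λ → ℝ => ∏ k, q (w k) := fun w =>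
    continuous_finsetProd _ fun k _ => continuous_apply _
  have h2 : ∀ w : Fin N → Λ, Continuous fun q : Λ → ℝ =>
      ∑ w' : Fin N → Λ, if f w' = f w then ∏ k, q (w' k) else 0 := by
    intro w
    refine continuous_finsetSum _ fun w' _ => ?_
    split_ifs
    exacts [h1 w', continuous_const]
  have h3 : ∀ w : Fin N → Λ,
      0 < ∑ w' : Fin N → Λ, if f w' = f w then ∏ k, p (w' k) else 0 := by
    intro w
    refine Finset.sum_pos' (fun w' _ => ?_) ⟨w, Finset.mem_univ w, ?_⟩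
    · split_ifs
      exacts [Finset.prod_nonneg fun k _ => (hp _).le, le_rfl]
    · rw [if_pos rfl]
      exact Finset.prod_pos fun k _ => hp _
  unfold Hp
  refine tendsto_finsetSum _ fun w _ => ?_
  exact ((h1 w).continuousAt.mul ((h2 w).continuousAt.log (h3 w).ne').neg).tendsto

omit [Fintype Λ] in
lemma continuous_trL (u : List Λ) :
    Continuous fun x : (Λ → ℝ) × (Λ → ℝ) × (Λ → ℝ) => trL x.1 x.2.1 u := by
  induction u with
  | nil => exact continuous_const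
  | cons i u ih =>
    simp only [trL]
    exact ((continuous_apply i).comp (continuous_fst.comp continuous_snd)).add
      (((continuous_apply i).comp continuous_fst).mul ih)

/-- The system with given bounds. -/
def mkSys (κ ρ : ℝ) (hκ : 0 < κ) (hρ : ρ < 1) (y : (Λ → ℝ) × (Λ → ℝ) × (Λ → ℝ))
    (hy : y ∈ Params Λ) (h1 : ∀ i, κ ≤ |y.1 i|) (h2 : ∀ i, |y.1 i| ≤ ρ) : Sys Λ :=
  ⟨y.1, ⟨y.2.2, fun i => (hy.2.2.1 i).le, hy.2.2.2⟩, ρ, κ, hκ, hρ, h1, h2⟩

/-- Lower semicontinuity of the value of the formula. -/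
theorem lsc_Dval [Nonempty Λ] (x : (Λ → ℝ) × (Λ → ℝ) × (Λ → ℝ)) (hx : x ∈ Params Λ) (a : ℝ)
    (ha : a < Dval x) : ∀ᶠ y in 𝓝[Params Λ] x, a < Dval y := by
  have hlog : 0 < Real.log 2 := Real.log_pos (by norm_num)
  obtain ⟨i0, hi0⟩ := Finite.exists_max fun i => |x.1 i|
  obtain ⟨i1, hi1⟩ := Finite.exists_min fun i => |x.1 i|
  have hm0 : 0 < |x.1 i1| := abs_pos.2 (hx.1 i1)
  have hm1 : |x.1 i0| < 1 := hx.2.1 i0
  obtain ⟨κ, hκ⟩ : ∃ κ : ℝ, κ = |x.1 i1| / 2 := ⟨_, rfl⟩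
  obtain ⟨ρ, hρ⟩ : ∃ ρ : ℝ, ρ = (|x.1 i0| + 1) / 2 := ⟨_, rfl⟩
  have hκ0 : 0 < κ := by rw [hκ]; positivity
  have hρ1 : ρ < 1 := by rw [hρ]; linarith
  have hρ0 : 0 < ρ := by rw [hρ]; positivity
  have hκx : ∀ i, κ < |x.1 i| := fun i => by have := hi1 i; rw [hκ]; linarith
  have hρx : ∀ i, |x.1 i| < ρ := fun i => by have := hi0 i; rw [hρ]; linarith
  set Sx := mkSys κ ρ hκ0 hρ1 x hx (fun i => (hκx i).le) (fun i => (hρx i).le) with hSx
  have hαx : Sx.alpha x.2.1 = Dval x := alpha_eq Sx hx.2.2.1 x.2.1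
  obtain ⟨B, hB⟩ : ∃ B : ℝ, B = (‖x.2.1‖ + 1) / (1 - ρ) + 1 := ⟨_, rfl⟩
  obtain ⟨C, hC⟩ : ∃ C : ℝ,
      C = Real.log (1 / κ + 2) + 3 * Real.log 3 + Real.log (2 * B + 3) := ⟨_, rfl⟩
  obtain ⟨ε, hε⟩ : ∃ ε : ℝ, ε = (Dval x - a) / 2 := ⟨_, rfl⟩
  have hε0 : 0 < ε := by rw [hε]; linarith
  obtain ⟨b0, hb0⟩ := Sx.alpha_le_fS x.2.1 ε hε0
  obtain ⟨b1, hb1⟩ := exists_nat_gt ((C + 3 * Real.log 3 + 1) / (ε * Real.log 2))
  rw [div_lt_iff₀ (by positivity)] at hb1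
  obtain ⟨b, hb⟩ : ∃ b : ℕ, b = b0 + b1 + 1 := ⟨_, rfl⟩
  have hbb : (b1 : ℝ) ≤ b := by exact_mod_cast (by omega : b1 ≤ b)
  have hbpos : (0 : ℝ) < b := by exact_mod_cast (by omega : 0 < b)
  have hb2 : C + 3 * Real.log 3 + 1 < ε * (b * Real.log 2) := by
    have : (b1 : ℝ) * (ε * Real.log 2) ≤ b * (ε * Real.log 2) :=
      mul_le_mul_of_nonneg_right hbb (by positivity)
    linarith
  obtain ⟨N, hN⟩ : ∃ N : ℕ, B * ρ ^ N * 2 ^ b ≤ 1 := by
    have h1 : Tendsto (fun N : ℕ => B * ρ ^ N * 2 ^ b) atTop (𝓝 (B * 0 * 2 ^ b)) :=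
      ((tendsto_pow_atTop_nhds_zero_of_lt_one hρ0.le hρ1).const_mul _).mul_const _
    rw [mul_zero, zero_mul] at h1
    exact (h1.eventually_le_const one_pos).exists
  have hDle : ∀ (S : Sys Λ) (t : Λ → ℝ), S.ρ = ρ → ‖t‖ ≤ ‖x.2.1‖ + 1 → S.D t ≤ B := by
    intro S t hS ht
    unfold Sys.D
    rw [hB, hS]
    have : 0 < 1 - ρ := by linarith
    gcongr
  have hDN : ∀ (S : Sys Λ) (t : Λ → ℝ), S.ρ = ρ → ‖t‖ ≤ ‖x.2.1‖ + 1 →
      S.D t * S.ρ ^ N * 2 ^ b ≤ 1 := by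
    intro S t hS ht
    refine le_trans ?_ hN
    have := hDle S t hS ht
    rw [hS]
    gcongr
  set f : (Fin N → Λ) → ℤ := fun w => ⌊(2 : ℝ) ^ b * tr x.1 x.2.1 w⌋ with hf
  have hx1 : (Dval x - ε) * (b * Real.log 2) ≤ Hp N f x.2.2 + Real.log 3 := by
    have h1 := hb0 b (by omega)
    have h2 := Sx.fS_le_F x.2.1 b N (hDN Sx x.2.1 rfl (by linarith))
    rw [hαx] at h1
    exact h1.trans h2
  have e1 : ∀ᶠ y in 𝓝 x, ∀ i, κ < |y.1 i| ∧ |y.1 i| < ρ := by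
    rw [eventually_all]
    intro i
    have hc : ContinuousAt (fun y : (Λ → ℝ) × (Λ → ℝ) × (Λ → ℝ) => |y.1 i|) x :=
      (((continuous_apply i).comp continuous_fst).abs).continuousAt
    exact (hc.eventually_const_lt (hκx i)).and (hc.eventually_lt_const (hρx i))
  have e2 : ∀ᶠ y in 𝓝 x, ‖y.2.1‖ < ‖x.2.1‖ + 1 := by
    have hc : ContinuousAt (fun y : (Λ → ℝ) × (Λ → ℝ) × (Λ → ℝ) => ‖y.2.1‖) x :=
      ((continuous_fst.comp continuous_snd).norm).continuousAt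
    exact hc.eventually_lt_const (by linarith)
  have e3 : ∀ᶠ y in 𝓝 x, Hp N f x.2.2 - 1 < Hp N f y.2.2 := by
    have hc : ContinuousAt (fun y : (Λ → ℝ) × (Λ → ℝ) × (Λ → ℝ) => Hp N f y.2.2) x :=
      ContinuousAt.comp (f := fun y : (Λ → ℝ) × (Λ → ℝ) × (Λ → ℝ) => y.2.2)
        (continuousAt_Hp N f x.2.2 hx.2.2.1) (continuous_snd.comp continuous_snd).continuousAt
    exact hc.eventually_const_lt (by linarith)
  have e4 : ∀ᶠ y in 𝓝 x, ∀ w : Fin N → Λ,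
      |(2 : ℝ) ^ b * tr x.1 x.2.1 w - 2 ^ b * tr y.1 y.2.1 w| < 1 := by
    rw [eventually_all]
    intro w
    have hc : ContinuousAt (fun y : (Λ → ℝ) × (Λ → ℝ) × (Λ → ℝ) =>
        |(2 : ℝ) ^ b * tr x.1 x.2.1 w - 2 ^ b * tr y.1 y.2.1 w|) x :=
      ((continuous_const.sub (continuous_const.mul (continuous_trL (List.ofFn w)))).abs).continuousAt
    exact hc.eventually_lt_const (by simp)
  filter_upwards [self_mem_nhdsWithin, mem_nhdsWithin_of_mem_nhds e1,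
    mem_nhdsWithin_of_mem_nhds e2, mem_nhdsWithin_of_mem_nhds e3,
    mem_nhdsWithin_of_mem_nhds e4] with y hy h1 h2 h3 h4
  set Sy := mkSys κ ρ hκ0 hρ1 y hy (fun i => (h1 i).1.le) (fun i => (h1 i).2.le) with hSy
  have hαy : Sy.alpha y.2.1 = Dval y := alpha_eq Sy hy.2.2.1 y.2.1
  have h5 : Hp N f y.2.2 ≤ Sy.F y.2.1 N (2 ^ b) + Real.log 3 :=
    H_le_of_near (Sy.P.pi N) f (fun w => ⌊(2 : ℝ) ^ b * tr y.1 y.2.1 w⌋) id fun w =>
      floor_near (h4 w).le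
  have h6 := Sy.F_le_fS y.2.1 b N (hDN Sy y.2.1 rfl h2.le)
  have h7 := Sy.fS_le_alpha y.2.1 b
  have h8 : Sy.C5 y.2.1 ≤ C := by
    have h9 := hDle Sy y.2.1 rfl h2.le
    have h10 := Sy.one_le_D y.2.1
    have h11 : Real.log (2 * Sy.D y.2.1 + 3) ≤ Real.log (2 * B + 3) :=
      Real.log_le_log (by linarith) (by linarith)
    have h12 : Sy.κ = κ := rfl
    unfold Sys.C5 Sys.C4
    rw [hC, h12]
    linarith
  rw [hαy] at h7
  have h9 : a * (b * Real.log 2) < Dval y * (b * Real.log 2) := by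
    have e : a = Dval x - ε - ε := by rw [hε]; ring
    rw [e]
    linarith
  exact lt_of_mul_lt_mul_right h9 (by positivity)

lemma continuous_lyap (x : (Λ → ℝ) × (Λ → ℝ) × (Λ → ℝ)) (hx : x ∈ Params Λ) :
    ContinuousAt (fun y : (Λ → ℝ) × (Λ → ℝ) × (Λ → ℝ) => lyap y.1 y.2.2) x := by
  simp only [lyap_eq]
  refine ContinuousAt.div_const (ContinuousAt.neg ?_) _
  refine tendsto_finsetSum _ fun i _ => ?_
  have h1 : ContinuousAt (fun y : (Λ → ℝ) × (Λ → ℝ) × (Λ → ℝ) => y.2.2 i) x :=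
    ((continuous_apply i).comp (continuous_snd.comp continuous_snd)).continuousAt
  have h2 : ContinuousAt (fun y : (Λ → ℝ) × (Λ → ℝ) × (Λ → ℝ) => |y.1 i|) x :=
    (((continuous_apply i).comp continuous_fst).abs).continuousAt
  exact (h1.mul (h2.log (abs_pos.2 (hx.1 i)).ne')).tendsto

/-- Upper semicontinuity in the weights. -/
theorem usc_weights (r t p : Λ → ℝ) (hx : (r, t, p) ∈ Params Λ) (a : ℝ)
    (ha : Dval (r, t, p) < a) :
    ∀ᶠ q in 𝓝[{q | (r, t, q) ∈ Params Λ}] p, Dval (r, t, q) < a := by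
  rcases min_lt_iff.1 ha with h | h
  · exact Eventually.of_forall fun q => lt_of_le_of_lt (min_le_left _ _) h
  have hL := lyap_pos r p hx.1 hx.2.1 (fun i => (hx.2.2.1 i).le) hx.2.2.2
  replace h : hRW r t p / lyap r p < a := h
  rw [div_lt_iff₀ hL] at h
  obtain ⟨n, hn, hn2⟩ : ∃ n : ℕ, n ≠ 0 ∧ stepEntropy r t p n / n < a * lyap r p := by
    by_contra hcon
    push Not at hcon
    exact absurd (le_hRW r t p _ hcon) (not_le.2 h)
  have hst : ∀ q : Λ → ℝ, (r, t, q) ∈ Params Λ → stepEntropy r t q n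
      = Hp n (fun w => (sl r w, tr r t w)) q / Real.log 2 := fun q hq =>
    stepEntropy_eq r t q ⟨q, fun i => (hq.2.2.1 i).le, hq.2.2.2⟩ (fun _ => rfl) n
  have hc1 : ContinuousAt (fun q => Hp n (fun w => (sl r w, tr r t w)) q / Real.log 2 / n) p :=
    ((continuousAt_Hp n _ p hx.2.2.1).div_const _).div_const _
  have hc2 : ContinuousAt (fun q => a * lyap r q) p := by
    refine continuousAt_const.mul ?_
    exact ContinuousAt.comp (f := fun q : Λ → ℝ => (r, t, q))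
      (g := fun y : (Λ → ℝ) × (Λ → ℝ) × (Λ → ℝ) => lyap y.1 y.2.2)
      (continuous_lyap _ hx) (by fun_prop)
  have e1 := hc1.eventually_lt hc2 (by rw [← hst p hx]; exact hn2)
  filter_upwards [self_mem_nhdsWithin, mem_nhdsWithin_of_mem_nhds e1] with q hq h1
  have hq' : (r, t, q) ∈ Params Λ := hq
  have hLq := lyap_pos r q hx.1 hx.2.1 (fun i => (hq'.2.2.1 i).le) hq'.2.2.2
  refine lt_of_le_of_lt (min_le_right _ _) ?_
  show hRW r t q / lyap r q < a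
  rw [div_lt_iff₀ hLq]
  refine lt_of_le_of_lt (hRW_le r t q (fun i => (hq'.2.2.1 i).le) hq'.2.2.2 n hn) ?_
  rw [hst q hq']
  exact h1

/-- Continuity in the weights. -/
theorem continuousOn_weights [Nonempty Λ] (r t : Λ → ℝ) :
    ContinuousOn (fun q => Dval (r, t, q)) {q | (r, t, q) ∈ Params Λ} := by
  intro p hp
  refine tendsto_order.2 ⟨fun a ha => ?_, fun a ha => usc_weights r t p hp a ha⟩
  have h1 := lsc_Dval (r, t, p) hp a ha
  have h2 : Tendsto (fun q : Λ → ℝ => (r, t, q)) (𝓝[{q | (r, t, q) ∈ Params Λ}] p)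
      (𝓝[Params Λ] (r, t, p)) := by
    refine tendsto_nhdsWithin_iff.2 ⟨?_, self_mem_nhdsWithin⟩
    have : Continuous fun q : Λ → ℝ => (r, t, q) := by fun_prop
    exact (this.tendsto p).mono_left nhdsWithin_le_nhds
  exact h2.eventually h1

end Vale.Agent.N114
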