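import Vale.Agent.N114.Compare

open scoped Classical ENNReal

open MeasureTheory

/-- The entropy-rate dimension conjecture (Q1); the dependence of the dimension on the
parameters; the dimension of self-similar sets with exact overlaps; comparison of systems. -/
theorem Vale.Agent.N114.OldContinuityAndSets.old
    {Λ : Type} [Fintype Λ] [Nonempty Λ] :
    (∀ r t p : Λ → ℝ, (∀ i, r i ≠ 0) → (∀ i, |r i| < 1) → (∀ i, 0 < p i) → ∑ i, p i = 1 →
      (∃! μ : Measure ℝ, Vale.Agent.P114.IsSelfSimilar r t p μ) ∧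
      ∀ μ : Measure ℝ, Vale.Agent.P114.IsSelfSimilar r t p μ →
        Vale.Agent.P114.lowerDimH μ = ENNReal.ofReal
          (min 1 (Vale.Agent.P114.hRW r t p / Vale.Agent.P114.lyap r p))) ∧
    (∀ μ : (Λ → ℝ) × (Λ → ℝ) × (Λ → ℝ) → Measure ℝ,
      (∀ x ∈ Vale.Agent.N114.Params Λ, Vale.Agent.P114.IsSelfSimilar x.1 x.2.1 x.2.2 (μ x)) →
      LowerSemicontinuousOn (fun x => Vale.Agent.P114.lowerDimH (μ x))
        (Vale.Agent.N114.Params Λ) ∧
      (∀ x ∈ Vale.Agent.N114.Params Λ,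
        ContinuousWithinAt (fun x => Vale.Agent.P114.lowerDimH (μ x))
          (Vale.Agent.N114.Params Λ) x ↔
        Vale.Agent.P114.NoExactOverlaps x.1 x.2.1 ∨ Vale.Agent.P114.lowerDimH (μ x) = 1) ∧
      ∀ r t : Λ → ℝ, ContinuousOn (fun p => Vale.Agent.P114.lowerDimH (μ (r, t, p)))
        {p | (r, t, p) ∈ Vale.Agent.N114.Params Λ}) ∧
    (∀ r t : Λ → ℝ, (∀ i, r i ≠ 0) → (∀ i, |r i| < 1) →
      ∀ K : Set ℝ, Vale.Agent.P114.IsAttractor r t K →
        dimH K = min 1 (Vale.Agent.N114.freeDim r t)) ∧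
    (∀ r t r' t' : Λ → ℝ, (∀ i, r i ≠ 0) → (∀ i, |r i| ≤ |r' i|) → (∀ i, |r' i| < 1) →
      (∀ u v : List Λ, u.length = v.length →
        Vale.Agent.P114.wordMap r' t' u = Vale.Agent.P114.wordMap r' t' v →
        Vale.Agent.P114.wordMap r t u = Vale.Agent.P114.wordMap r t v) →
      (∀ K K' : Set ℝ, Vale.Agent.P114.IsAttractor r t K →
        Vale.Agent.P114.IsAttractor r' t' K' → dimH K ≤ dimH K') ∧
      ∀ p : Λ → ℝ, (∀ i, 0 < p i) → ∑ i, p i = 1 → ∀ μ μ' : Measure ℝ,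
        Vale.Agent.P114.IsSelfSimilar r t p μ → Vale.Agent.P114.IsSelfSimilar r' t' p μ' →
        Vale.Agent.P114.lowerDimH μ ≤ Vale.Agent.P114.lowerDimH μ') := by
  refine ⟨fun r t p hr0 hr1 hp hp1 => ⟨?_, Vale.Agent.P114.LD.formula r t p hr0 hr1 hp hp1⟩,
    Vale.Agent.N114.param_dependence,
    fun r t hr0 hr1 K hK => Vale.Agent.N114.dimH_eq_freeDim r t hr0 hr1 K hK,
    fun r t r' t' hr0 hle hr1' hov => ?_⟩
  · obtain ⟨μ, hμ, -⟩ := Vale.Agent.P114.LD.exists_selfSimilar r t p hr1 (fun i => (hp i).le) hp1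
    exact ⟨μ, hμ, fun μ' hμ' => Vale.Agent.P114.LD.unique_selfSimilar r t p hr0 hr1
      (fun i => (hp i).le) hp1 μ' μ hμ' hμ⟩
  · have hr0' : ∀ i, r' i ≠ 0 := fun i => abs_pos.1 ((abs_pos.2 (hr0 i)).trans_le (hle i))
    have hr1 : ∀ i, |r i| < 1 := fun i => (hle i).trans_lt (hr1' i)
    refine ⟨fun K K' hK hK' => ?_, fun p hp hp1 μ μ' hμ hμ' => ?_⟩
    · rw [Vale.Agent.N114.dimH_eq_freeDim r t hr0 hr1 K hK,
        Vale.Agent.N114.dimH_eq_freeDim r' t' hr0' hr1' K' hK']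
      exact min_le_min le_rfl (Vale.Agent.N114.freeDim_mono r t r' t' hr0 hr1' hle hov)
    · rw [Vale.Agent.P114.LD.formula r t p hr0 hr1 hp hp1 μ hμ,
        Vale.Agent.P114.LD.formula r' t' p hr0' hr1' hp hp1 μ' hμ']
      exact ENNReal.ofReal_le_ofReal (min_le_min le_rfl
        (Vale.Agent.N114.ratio_mono r t r' t' p hr0 hr1' hle hov hp hp1))
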